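import Vale.Agent.P269D.Defs
import Vale.Agent.P269AV.IF

/-!
# P269: the final statement and its reduction to the four blocks
-/

open scoped Manifold ContDiff

namespace Vale.Agent.P269Z

open P269A (Coh CohOK ModOK Van)
open P269H P269C P269D P269AV

/-- the final statement -/
def Final : Prop :=
  ∀ (r c : ℕ) (M : Type) [TopologicalSpace M] [ChartedSpace (Fin r → ℂ) M]
    [IsManifold 𝓘(ℂ, Fin r → ℂ) ω M] [T2Space M] [CompactSpace M] [ConnectedSpace M]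
    (X : CI r c M) (ι : Type) [Fintype ι] [DecidableEq ι] (B : P269H.Bas r M ι) (D : Md)
    (A : ∀ g e n, 0 < e → Atl X g e n), 3 ≤ r →
    let V : Frob ι := ⟨r, B.p, B.q, B.o, (X.coh B).η, (X.coh B).R⟩
    ∃ Z, V.IsExp (pot (GW B D A)) Z ∧
      (∀ n, ∃ ζ, V.L n Z = V.mul ζ Z ∧ (∀ d w, ∀ j < -1, cf d j (ζ w) = 0) ∧
        ∀ (g d : ℕ) w, d = 0 ∨ (3 - r : ℤ) * (g - 1) + X.idx * d < 0 → cf d (g - 1) (ζ w) = 0) ∧
      (X.idx < 3 - r → ∀ n, V.L n Z = 0)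

/-- block A -/
def BA : Prop := ∀ (ι : Type) [Fintype ι] [DecidableEq ι] (X : Coh ι) I
  (N : ℕ → ℕ → List (ℕ × ι) → ℂ) (c : ℤ), CohOK X → ModOK I → 3 ≤ X.r → (∀ g, N g 0 = X.N0 I g) →
  (∀ g d, 0 < d → Van X c (N g d) g d) →
  (∀ g d l, 0 < d → N g d l ≠ 0 → Even ((l.map fun i => X.deg i.2).sum)) → VIR (frob X) c N

/-- block C -/
def BC : Prop := ∀ D : Md, ModOK D.I

/-- block H -/
def BH : Prop := ∀ (r c : ℕ) (M : Type) [TopologicalSpace M] [ChartedSpace (Fin r → ℂ) M]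
  [IsManifold 𝓘(ℂ, Fin r → ℂ) ω M] [T2Space M] [CompactSpace M] [ConnectedSpace M]
  (X : CI r c M) (ι : Type) [Fintype ι] [DecidableEq ι] (B : P269H.Bas r M ι), 3 ≤ r →
  CohOK (X.coh B)

/-- block D -/
def BD : Prop := ∀ (r c : ℕ) (M : Type) [TopologicalSpace M] [ChartedSpace (Fin r → ℂ) M]
  (X : CI r c M) (ι : Type) [Fintype ι] [DecidableEq ι] (B : P269H.Bas r M ι) (D : Md)
  (A : ∀ g e n, 0 < e → Atl X g e n) (g e : ℕ), 0 < e →
  Van (X.coh B) X.idx (GW B D A g e) g e ∧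
    ∀ l, GW B D A g e l ≠ 0 → Even ((l.map fun i => (X.coh B).deg i.2).sum)

theorem final (hA : BA) (hC : BC) (hH : BH) (hD : BD) : Final := by
  intro r c M _ _ _ _ _ _ X ι _ _ B D A hr
  exact hA ι (X.coh B) D.I (GW B D A) X.idx (hH r c M X ι B hr) (hC D) hr
    (fun g => funext fun l => dif_neg (lt_irrefl 0))
    (fun g d hd => (hD r c M X ι B D A g d hd).1) fun g d l hd => (hD r c M X ι B D A g d hd).2 l

end Vale.Agent.P269Z
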